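import Vale.Agent.P116.Stm
import Vale.Agent.P116.KoMain
import Vale.Agent.P116.AMain
import Vale.Agent.P116.DMain
import Vale.Agent.P116.EMain
import Vale.Agent.P116.IMain
import Vale.Agent.P116.RMain
import Vale.Agent.P116.TMain

/-! The circle domain conjecture of Koebe: every domain of the Riemann sphere is conformally
equivalent to a circle domain. -/

namespace Vale.Agent.Results.P116.Koebe

open Vale.Agent.P116

theorem result : ∀ G : Set (OnePoint ℂ), IsDomain G →
    ∃ (Ω : Set (OnePoint ℂ)) (f : OnePoint ℂ → OnePoint ℂ),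
      IsCircleDomain Ω ∧ Set.BijOn f G Ω ∧ HolOn f G :=
  koebe_of_squareThm
    (square_of (s_ex lib_all) (s_iso lib_all (s_iso0 lib_all (s_T lib_all) (s_D lib_all))))

end Vale.Agent.Results.P116.Koebe
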